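/-
S0351 package WITT/TROPICAL: the combinatorial optimisation in the Rank lemma (real numbers and integers only).
See BLUEPRINT.md §RK.

Proof by an explicit dual certificate (potentials) for the assignment problem, instead of the exchange
argument sketched in the blueprint.
-/
import Mathlib

set_option autoImplicit false

namespace Crest.Agent.LT

noncomputable section

namespace TropicalAux

/-- `f` nondecreasing on consecutive integers of `[a,b]` is monotone there. -/
theorem mono_of_step (f : ℕ → ℝ) (a b : ℕ) (h : ∀ u, a ≤ u → u + 1 ≤ b → f u ≤ f (u + 1))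
    (u v : ℕ) (hau : a ≤ u) (huv : u ≤ v) (hvb : v ≤ b) : f u ≤ f v := by
  induction v, huv using Nat.le_induction with
  | base => exact le_rfl
  | succ v huv ih => exact (ih (by omega)).trans (h v (by omega) hvb)

/-- `f` nonincreasing on consecutive integers of `[a,b]` is antitone there. -/
theorem anti_of_step (f : ℕ → ℝ) (a b : ℕ) (h : ∀ u, a ≤ u → u + 1 ≤ b → f (u + 1) ≤ f u)
    (u v : ℕ) (hau : a ≤ u) (huv : u ≤ v) (hvb : v ≤ b) : f v ≤ f u := by
  induction v, huv using Nat.le_induction with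
  | base => exact le_rfl
  | succ v huv ih => exact (h v (by omega) hvb).trans (ih (by omega))

/-- A real function on a finite type has a positive lower bound on its positive values. -/
theorem exists_gap {α : Type*} [Finite α] (f : α → ℝ) : ∃ g : ℝ, 0 < g ∧ ∀ a, 0 < f a → g ≤ f a := by
  classical
  cases nonempty_fintype α
  by_cases h : ∃ a, 0 < f a
  · obtain ⟨a₀, ha₀⟩ := h
    let S : Finset α := Finset.univ.filter fun a => 0 < f a
    have hS : S.Nonempty := ⟨a₀, by simp [S, ha₀]⟩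
    obtain ⟨a₁, ha₁S, ha₁⟩ := S.exists_min_image f hS
    refine ⟨f a₁, by simpa [S] using ha₁S, fun a ha => ha₁ a (by simp [S, ha])⟩
  · push Not at h
    exact ⟨1, one_pos, fun a ha => absurd ha (not_lt.mpr (h a))⟩

variable (q Q : ℝ) (m : ℕ) (ν : ℕ → ℝ) (c : ℝ)

/-- Slopes of the concave potential. -/
def slope (u : ℕ) : ℝ := if u + 1 < m then (ν (m - 1 - u) + ν (m - 2 - u)) / 2 else c

/-- `q^u` for `u < m`, `Q` for `u = m`. -/
def x0 (u : ℕ) : ℝ := if u < m then q ^ u else Q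

/-- Increments of `x0`. -/
def D0 (u : ℕ) : ℝ := x0 q Q m (u + 1) - x0 q Q m u

/-- The potential. -/
def E (u : ℕ) : ℝ := ∑ t ∈ Finset.range u, slope m ν c t * D0 q Q m t

/-- The reduced cost of putting weight `y` at exponent `u + n k`. -/
def F (y : ℝ) (u : ℕ) (k : ℤ) : ℝ := y * (q ^ u * Q ^ k) - E q Q m ν c m * k - E q Q m ν c u

variable {q Q m ν c}

theorem E_succ (u : ℕ) : E q Q m ν c (u + 1) = E q Q m ν c u + slope m ν c u * D0 q Q m u := by
  simp [E, Finset.sum_range_succ]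

theorem step_up (y : ℝ) (u : ℕ) (k : ℤ) (hu : u + 1 < m) :
    F q Q m ν c y (u + 1) k - F q Q m ν c y u k = D0 q Q m u * (y * Q ^ k - slope m ν c u) := by
  have h1 : D0 q Q m u = q ^ (u + 1) - q ^ u := by
    simp only [D0, x0, if_pos hu, if_pos (show u < m by omega)]
  simp only [F, E_succ]
  rw [h1]
  ring

theorem step_wrap (hm : 1 ≤ m) (hQ : Q ≠ 0) (y : ℝ) (k : ℤ) :
    F q Q m ν c y 0 (k + 1) - F q Q m ν c y (m - 1) k =
      D0 q Q m (m - 1) * (y * Q ^ k - slope m ν c (m - 1)) := by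
  have h1 : D0 q Q m (m - 1) = Q - q ^ (m - 1) := by
    have h2 : m - 1 + 1 = m := by omega
    simp only [D0, x0, h2, lt_irrefl, if_false, if_pos (show m - 1 < m by omega)]
  have h3 : E q Q m ν c m = E q Q m ν c (m - 1) + slope m ν c (m - 1) * D0 q Q m (m - 1) := by
    rw [← E_succ]; congr 1; omega
  have h4 : E q Q m ν c 0 = 0 := by simp [E]
  simp only [F, h4]
  rw [zpow_add_one₀ hQ, h3, h1]
  push_cast
  ring

/-- The standing hypotheses. -/
structure Hyp (q Q : ℝ) (m : ℕ) (ν : ℕ → ℝ) (c : ℝ) : Prop where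
  hm : 1 ≤ m
  hq : 1 < q
  hQ1 : 1 < Q
  hQq : q ^ (m - 1) < Q
  hν0 : 0 < ν 0
  hmono : Monotone ν
  hc1 : ν (m - 1) / Q < c
  hc2 : c < ν 0

namespace Hyp

variable (H : Hyp q Q m ν c)
include H

theorem Q_pos : 0 < Q := by linarith [H.hQ1]

theorem D0_pos (u : ℕ) (hu : u < m) : 0 < D0 q Q m u := by
  by_cases h : u + 1 < m
  · have h1 : D0 q Q m u = q ^ (u + 1) - q ^ u := by
      simp only [D0, x0, if_pos h, if_pos hu]
    rw [h1, sub_pos]
    exact pow_lt_pow_right₀ H.hq (by omega)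
  · have hu' : u = m - 1 := by omega
    subst hu'
    have h2 : m - 1 + 1 = m := by have := H.hm; omega
    have h3 : D0 q Q m (m - 1) = Q - q ^ (m - 1) := by
      simp only [D0, x0, h2, lt_irrefl, if_false, if_pos hu]
    rw [h3, sub_pos]
    exact H.hQq

theorem c_pos : 0 < c := by
  have h : 0 < ν (m - 1) / Q := div_pos (lt_of_lt_of_le H.hν0 (H.hmono (Nat.zero_le _))) H.Q_pos
  linarith [H.hc1]

theorem slope_le (u : ℕ) : slope m ν c u ≤ ν (m - 1) := by
  unfold slope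
  split_ifs with h
  · have h1 := H.hmono (show m - 1 - u ≤ m - 1 by omega)
    have h2 := H.hmono (show m - 2 - u ≤ m - 1 by omega)
    linarith
  · have := H.hmono (Nat.zero_le (m - 1))
    linarith [H.hc2]

theorem le_slope (u : ℕ) : c ≤ slope m ν c u := by
  unfold slope
  split_ifs with h
  · have h1 := H.hmono (Nat.zero_le (m - 1 - u))
    have h2 := H.hmono (Nat.zero_le (m - 2 - u))
    linarith [H.hc2]
  · exact le_rfl

theorem slope_last : slope m ν c (m - 1) = c := by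
  have := H.hm
  simp [slope, show ¬ (m - 1 + 1 < m) by omega]

/-- `y Q^k` dominates all slopes for `k ≥ 1`. -/
theorem slope_lt_of_one_le (y : ℝ) (hy : ν 0 ≤ y) (k : ℤ) (hk : 1 ≤ k) (u : ℕ) :
    slope m ν c u ≤ y * Q ^ k := by
  have h1 : Q ≤ Q ^ k := by
    simpa using zpow_le_zpow_right₀ H.hQ1.le hk
  have h2 : ν (m - 1) < Q * ν 0 := by
    have := H.hc1.trans H.hc2
    rwa [div_lt_iff₀ H.Q_pos, mul_comm] at this
  have h3 : Q * ν 0 ≤ y * Q ^ k := by
    have hy0 : 0 ≤ y := H.hν0.le.trans hy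
    calc Q * ν 0 ≤ Q ^ k * y := by
          apply mul_le_mul h1 hy H.hν0.le (zpow_nonneg H.Q_pos.le _)
      _ = y * Q ^ k := mul_comm _ _
  linarith [H.slope_le u]

/-- All slopes dominate `y Q^k` for `k ≤ -1`. -/
theorem lt_slope_of_le_neg_one (y : ℝ) (hy0 : 0 ≤ y) (hy : y ≤ ν (m - 1)) (k : ℤ) (hk : k ≤ -1)
    (u : ℕ) : y * Q ^ k ≤ slope m ν c u := by
  have h1 : Q ^ k ≤ Q⁻¹ := by
    simpa using zpow_le_zpow_right₀ H.hQ1.le hk
  have h3 : y * Q ^ k ≤ ν (m - 1) / Q := by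
    rw [div_eq_mul_inv]
    exact mul_le_mul hy h1 (zpow_nonneg H.Q_pos.le _) (hy0.trans hy)
  linarith [H.le_slope u, H.hc1]

/-- The gap constant. -/
theorem g1_pos : 0 < D0 q Q m (m - 1) * min (ν 0 - c) (c - ν (m - 1) / Q) := by
  have := H.hm
  exact mul_pos (H.D0_pos _ (by omega)) (lt_min (by linarith [H.hc2]) (by linarith [H.hc1]))

/-! ### `k = 0` -/

section Zero

variable {i : ℕ} (hi : i < m)
include hi

theorem zero_up (u : ℕ) (hu : m - 1 - i ≤ u) (hu1 : u + 1 ≤ m - 1) :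
    F q Q m ν c (ν i) u 0 ≤ F q Q m ν c (ν i) (u + 1) 0 := by
  have hs := step_up (q := q) (Q := Q) (m := m) (ν := ν) (c := c) (ν i) u 0 (by omega)
  have hD := H.D0_pos u (by omega)
  have hsl : slope m ν c u ≤ ν i := by
    have h0 : u + 1 < m := by omega
    simp only [slope, if_pos h0]
    have h1 := H.hmono (show m - 1 - u ≤ i by omega)
    have h2 := H.hmono (show m - 2 - u ≤ i by omega)
    linarith
  have : 0 ≤ D0 q Q m u * (ν i * Q ^ (0 : ℤ) - slope m ν c u) := by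
    apply mul_nonneg hD.le
    simp only [zpow_zero, mul_one]
    linarith
  linarith

theorem zero_down (u : ℕ) (hu1 : u + 1 ≤ m - 1 - i) :
    F q Q m ν c (ν i) (u + 1) 0 ≤ F q Q m ν c (ν i) u 0 := by
  have hs := step_up (q := q) (Q := Q) (m := m) (ν := ν) (c := c) (ν i) u 0 (by omega)
  have hD := H.D0_pos u (by omega)
  have hsl : ν i ≤ slope m ν c u := by
    have h0 : u + 1 < m := by omega
    simp only [slope, if_pos h0]
    have h1 := H.hmono (show i ≤ m - 1 - u by omega)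
    have h2 := H.hmono (show i ≤ m - 2 - u by omega)
    linarith
  have : D0 q Q m u * (ν i * Q ^ (0 : ℤ) - slope m ν c u) ≤ 0 := by
    apply mul_nonpos_of_nonneg_of_nonpos hD.le
    simp only [zpow_zero, mul_one]
    linarith
  linarith

/-- `k = 0`: the reduced cost is minimal at `u = m - 1 - i`. -/
theorem zero_min (u : ℕ) (hu : u < m) :
    F q Q m ν c (ν i) (m - 1 - i) 0 ≤ F q Q m ν c (ν i) u 0 := by
  rcases le_total (m - 1 - i) u with h | h
  · exact mono_of_step (fun u => F q Q m ν c (ν i) u 0) (m - 1 - i) (m - 1)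
      (fun u h1 h2 => H.zero_up hi u h1 h2) _ _ le_rfl h (by omega)
  · exact anti_of_step (fun u => F q Q m ν c (ν i) u 0) 0 (m - 1 - i)
      (fun u _ h2 => H.zero_down hi u h2) _ _ (Nat.zero_le _) h le_rfl

/-- `k = 0`: equality case. -/
theorem zero_eq (u : ℕ) (hu : u < m)
    (h : F q Q m ν c (ν i) u 0 = F q Q m ν c (ν i) (m - 1 - i) 0) : ν i = ν (m - 1 - u) := by
  rcases lt_trichotomy u (m - 1 - i) with h1 | h1 | h1
  · -- `u < l*`
    have h2 : F q Q m ν c (ν i) (u + 1) 0 ≤ F q Q m ν c (ν i) u 0 := H.zero_down hi u (by omega)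
    have h3 : F q Q m ν c (ν i) (m - 1 - i) 0 ≤ F q Q m ν c (ν i) (u + 1) 0 := by
      exact H.zero_min hi (u + 1) (by omega)
    have hs := step_up (q := q) (Q := Q) (m := m) (ν := ν) (c := c) (ν i) u 0 (by omega)
    have hD := H.D0_pos u (by omega)
    have h4 : D0 q Q m u * (ν i * Q ^ (0 : ℤ) - slope m ν c u) = 0 := by linarith
    have h5 : ν i * Q ^ (0 : ℤ) - slope m ν c u = 0 :=
      (mul_eq_zero.mp h4).resolve_left hD.ne'
    have h0 : u + 1 < m := by omega
    simp only [zpow_zero, mul_one, slope, if_pos h0] at h5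
    have h6 := H.hmono (show i ≤ m - 1 - u by omega)
    have h7 := H.hmono (show i ≤ m - 2 - u by omega)
    linarith
  · have : m - 1 - u = i := by omega
    rw [this]
  · -- `l* < u`
    obtain ⟨w, rfl⟩ : ∃ w, u = w + 1 := ⟨u - 1, by omega⟩
    have h2 : F q Q m ν c (ν i) w 0 ≤ F q Q m ν c (ν i) (w + 1) 0 :=
      H.zero_up hi w (by omega) (by omega)
    have h3 : F q Q m ν c (ν i) (m - 1 - i) 0 ≤ F q Q m ν c (ν i) w 0 :=
      H.zero_min hi w (by omega)
    have hs := step_up (q := q) (Q := Q) (m := m) (ν := ν) (c := c) (ν i) w 0 (by omega)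
    have hD := H.D0_pos w (by omega)
    have h4 : D0 q Q m w * (ν i * Q ^ (0 : ℤ) - slope m ν c w) = 0 := by linarith
    have h5 : ν i * Q ^ (0 : ℤ) - slope m ν c w = 0 :=
      (mul_eq_zero.mp h4).resolve_left hD.ne'
    have h0 : w + 1 < m := hu
    simp only [zpow_zero, mul_one, slope, if_pos h0] at h5
    have h6 := H.hmono (show m - 1 - w ≤ i by omega)
    have h7 := H.hmono (show m - 2 - w ≤ i by omega)
    have h8 : m - 2 - w = m - 1 - (w + 1) := by omega
    rw [← h8]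
    linarith

end Zero

/-! ### `k ≥ 1` -/

theorem pos_up (y : ℝ) (hy : ν 0 ≤ y) (k : ℤ) (hk : 1 ≤ k) (u : ℕ) (hu : u + 1 ≤ m - 1) :
    F q Q m ν c y u k ≤ F q Q m ν c y (u + 1) k := by
  have hm := H.hm
  have hs := step_up (q := q) (Q := Q) (m := m) (ν := ν) (c := c) y u k (by omega)
  have hD := H.D0_pos u (by omega)
  have : 0 ≤ D0 q Q m u * (y * Q ^ k - slope m ν c u) :=
    mul_nonneg hD.le (sub_nonneg.mpr (H.slope_lt_of_one_le y hy k hk u))
  linarith

theorem pos_zero_step (y : ℝ) (hy : ν 0 ≤ y) (k : ℤ) (hk : 1 ≤ k) :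
    F q Q m ν c y 0 k ≤ F q Q m ν c y 0 (k + 1) := by
  have hm := H.hm
  have h1 : F q Q m ν c y 0 k ≤ F q Q m ν c y (m - 1) k :=
    mono_of_step (fun u => F q Q m ν c y u k) 0 (m - 1)
      (fun u _ h2 => H.pos_up y hy k hk u h2) _ _ le_rfl (Nat.zero_le _) le_rfl
  have hs := step_wrap (q := q) (Q := Q) (m := m) (ν := ν) (c := c) hm H.Q_pos.ne' y k
  have hD := H.D0_pos (m - 1) (by omega)
  have : 0 ≤ D0 q Q m (m - 1) * (y * Q ^ k - slope m ν c (m - 1)) :=
    mul_nonneg hD.le (sub_nonneg.mpr (H.slope_lt_of_one_le y hy k hk _))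
  linarith

/-- `k ≥ 1`: the reduced cost exceeds the value at `(m-1, 0)` by the gap. -/
theorem pos_bound (y : ℝ) (hy : ν 0 ≤ y) (k : ℤ) (hk : 1 ≤ k) (u : ℕ) (hu : u < m) :
    F q Q m ν c y (m - 1) 0 + D0 q Q m (m - 1) * min (ν 0 - c) (c - ν (m - 1) / Q) ≤
      F q Q m ν c y u k := by
  have hm := H.hm
  have h1 : F q Q m ν c y 0 k ≤ F q Q m ν c y u k :=
    mono_of_step (fun u => F q Q m ν c y u k) 0 (m - 1)
      (fun u _ h2 => H.pos_up y hy k hk u h2) _ _ le_rfl (Nat.zero_le _) (by omega)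
  have h2 : F q Q m ν c y 0 1 ≤ F q Q m ν c y 0 k := by
    induction k, hk using Int.le_induction with
    | base => exact le_rfl
    | succ k hk ih =>
      exact (ih (mono_of_step (fun u => F q Q m ν c y u k) 0 (m - 1)
        (fun u _ h2 => H.pos_up y hy k hk u h2) _ _ le_rfl (Nat.zero_le _) (by omega))).trans
          (H.pos_zero_step y hy k hk)
  have hs := step_wrap (q := q) (Q := Q) (m := m) (ν := ν) (c := c) hm H.Q_pos.ne' y 0
  have hD := H.D0_pos (m - 1) (by omega)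
  rw [H.slope_last] at hs
  simp only [zpow_zero, mul_one, zero_add] at hs
  have h3 : D0 q Q m (m - 1) * min (ν 0 - c) (c - ν (m - 1) / Q) ≤
      D0 q Q m (m - 1) * (y - c) := by
    apply mul_le_mul_of_nonneg_left _ hD.le
    exact (min_le_left _ _).trans (by linarith)
  linarith

/-! ### `k ≤ -1` -/

theorem neg_down (y : ℝ) (hy0 : 0 ≤ y) (hy : y ≤ ν (m - 1)) (k : ℤ) (hk : k ≤ -1) (u : ℕ)
    (hu : u + 1 ≤ m - 1) : F q Q m ν c y (u + 1) k ≤ F q Q m ν c y u k := by
  have hm := H.hm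
  have hs := step_up (q := q) (Q := Q) (m := m) (ν := ν) (c := c) y u k (by omega)
  have hD := H.D0_pos u (by omega)
  have : D0 q Q m u * (y * Q ^ k - slope m ν c u) ≤ 0 :=
    mul_nonpos_of_nonneg_of_nonpos hD.le (sub_nonpos.mpr (H.lt_slope_of_le_neg_one y hy0 hy k hk u))
  linarith

theorem neg_last_step (y : ℝ) (hy0 : 0 ≤ y) (hy : y ≤ ν (m - 1)) (k : ℤ) (hk : k + 1 ≤ -1) :
    F q Q m ν c y (m - 1) (k + 1) ≤ F q Q m ν c y (m - 1) k := by
  have hm := H.hm
  have h1 : F q Q m ν c y (m - 1) (k + 1) ≤ F q Q m ν c y 0 (k + 1) :=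
    anti_of_step (fun u => F q Q m ν c y u (k + 1)) 0 (m - 1)
      (fun u _ h2 => H.neg_down y hy0 hy (k + 1) hk u h2) _ _ le_rfl (Nat.zero_le _) le_rfl
  have hs := step_wrap (q := q) (Q := Q) (m := m) (ν := ν) (c := c) hm H.Q_pos.ne' y k
  have hD := H.D0_pos (m - 1) (by omega)
  have : D0 q Q m (m - 1) * (y * Q ^ k - slope m ν c (m - 1)) ≤ 0 :=
    mul_nonpos_of_nonneg_of_nonpos hD.le
      (sub_nonpos.mpr (H.lt_slope_of_le_neg_one y hy0 hy k (by omega) _))
  linarith

/-- `k ≤ -1`: the reduced cost exceeds the value at `(0, 0)` by the gap. -/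
theorem neg_bound (y : ℝ) (hy0 : 0 ≤ y) (hy : y ≤ ν (m - 1)) (k : ℤ) (hk : k ≤ -1) (u : ℕ)
    (hu : u < m) :
    F q Q m ν c y 0 0 + D0 q Q m (m - 1) * min (ν 0 - c) (c - ν (m - 1) / Q) ≤
      F q Q m ν c y u k := by
  have hm := H.hm
  have h1 : F q Q m ν c y (m - 1) k ≤ F q Q m ν c y u k :=
    anti_of_step (fun u => F q Q m ν c y u k) 0 (m - 1)
      (fun u _ h2 => H.neg_down y hy0 hy k hk u h2) _ _ (Nat.zero_le _) (by omega) le_rfl
  have h2 : F q Q m ν c y (m - 1) (-1) ≤ F q Q m ν c y (m - 1) k := by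
    induction k, hk using Int.le_induction_down with
    | base => exact le_rfl
    | pred k hk ih =>
      have h3 := H.neg_last_step y hy0 hy (k - 1) (by omega)
      rw [sub_add_cancel] at h3
      exact (ih (anti_of_step (fun u => F q Q m ν c y u k) 0 (m - 1)
        (fun u _ h2 => H.neg_down y hy0 hy k hk u h2) _ _ (Nat.zero_le _) (by omega)
        le_rfl)).trans h3
  have hs := step_wrap (q := q) (Q := Q) (m := m) (ν := ν) (c := c) hm H.Q_pos.ne' y (-1)
  have hD := H.D0_pos (m - 1) (by omega)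
  rw [H.slope_last] at hs
  have h4 : (-1 : ℤ) + 1 = 0 := by norm_num
  rw [h4] at hs
  have h5 : y * Q ^ (-1 : ℤ) ≤ ν (m - 1) / Q := by
    rw [zpow_neg_one, div_eq_mul_inv]
    exact mul_le_mul_of_nonneg_right hy (inv_nonneg.mpr H.Q_pos.le)
  have h3 : D0 q Q m (m - 1) * min (ν 0 - c) (c - ν (m - 1) / Q) ≤
      D0 q Q m (m - 1) * (c - y * Q ^ (-1 : ℤ)) := by
    apply mul_le_mul_of_nonneg_left _ hD.le
    exact (min_le_right _ _).trans (by linarith)
  have h6 : D0 q Q m (m - 1) * (c - y * Q ^ (-1 : ℤ)) =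
      - (D0 q Q m (m - 1) * (y * Q ^ (-1 : ℤ) - c)) := by ring
  linarith

end Hyp

end TropicalAux

open TropicalAux in
/-- **Tropical lemma.** `p ≥ 2`, `1 ≤ m < n`, `0 < ν_0 ≤ ν_1 ≤ … ≤ ν_{m-1}` hmm: indices sorted *increasingly*,
`ν_{m-1} < p^n ν_0`. Then there is `s > 0` such that for the cost
`Φ(π, k) = ∑_i ν_i p^(π(i) + n k_i) - s ∑_i k_i` (`π : Fin m ≃ Fin m`, `k : Fin m → ℤ`) the minimum over all `(π,k)` is attained at `k = 0`, `π(i) = m-1-i`
with value `D`; every minimiser has `k = 0` and `ν_i = ν_{i'}` whenever `π(i) = m-1-i'`, and there is a gap `g > 0` with `Φ ≥ D + g` at all non-minimisers. -/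
theorem tropical_lemma (p n m : ℕ) (hp : 2 ≤ p) (hm : 1 ≤ m) (hmn : m < n) (ν : Fin m → ℝ)
    (hν0 : ∀ i, 0 < ν i) (hmono : Monotone ν)
    (hwin : ν ⟨m - 1, by omega⟩ < (p : ℝ) ^ n * ν ⟨0, by omega⟩) :
    ∃ (s g : ℝ), 0 < s ∧ 0 < g ∧ ∀ (π : Equiv.Perm (Fin m)) (k : Fin m → ℤ),
      let Φ := ∑ i, ν i * (p : ℝ) ^ (((π i : ℕ) : ℤ) + n * k i) - s * ∑ i, (k i : ℝ)
      let D := ∑ i : Fin m, ν i * (p : ℝ) ^ ((m : ℤ) - 1 - ((i : ℕ) : ℤ))
      (k = 0 ∧ ∀ i, ν i = ν ⟨m - 1 - (π i : ℕ), by omega⟩ ∧ Φ = D) ∨ D + g ≤ Φ := by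
  classical
  -- extend `ν` to `ℕ`
  let N : ℕ → ℝ := fun j => ν ⟨min j (m - 1), by omega⟩
  have hNν : ∀ i : Fin m, N i = ν i := by
    intro i
    simp only [N]
    congr 1
    ext
    simp only
    omega
  have hNmono : Monotone N := by
    intro a b hab
    apply hmono
    simp only [Fin.mk_le_mk]
    omega
  have hN0 : N 0 = ν ⟨0, by omega⟩ := by
    simp only [N]; congr 1
  have hNl : N (m - 1) = ν ⟨m - 1, by omega⟩ := by
    simp only [N]; congr 1; ext; simp
  let q : ℝ := p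
  have hq : 1 < q := by
    have : (2 : ℝ) ≤ p := by exact_mod_cast hp
    simp only [q]; linarith
  let Q : ℝ := q ^ n
  have hQ1 : 1 < Q := one_lt_pow₀ hq (by omega)
  have hQq : q ^ (m - 1) < Q := pow_lt_pow_right₀ hq (by omega)
  have hQ0 : 0 < Q := by linarith
  have hNpos : 0 < N 0 := by rw [hN0]; exact hν0 _
  have hw : N (m - 1) / Q < N 0 := by
    rw [div_lt_iff₀ hQ0, hN0, hNl, mul_comm]
    exact hwin
  let c : ℝ := (N (m - 1) / Q + N 0) / 2
  have H : Hyp q Q m N c :=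
    { hm := hm, hq := hq, hQ1 := hQ1, hQq := hQq, hν0 := hNpos, hmono := hNmono,
      hc1 := by simp only [c]; linarith, hc2 := by simp only [c]; linarith }
  -- the slack
  let sl : Fin m → Fin m → ℤ → ℝ := fun i u k =>
    F q Q m N c (ν i) u k - F q Q m N c (ν i) (m - 1 - i) 0
  have hνN : ∀ i : Fin m, ν i = N i := fun i => (hNν i).symm
  have hi0 : ∀ i : Fin m, N 0 ≤ ν i := fun i => by
    rw [hνN i]; exact hNmono (Nat.zero_le _)
  have hil : ∀ i : Fin m, ν i ≤ N (m - 1) := fun i => by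
    rw [hνN i]; exact hNmono (by omega)
  set g1 : ℝ := D0 q Q m (m - 1) * min (N 0 - c) (c - N (m - 1) / Q) with hg1
  have hg1pos : 0 < g1 := H.g1_pos
  have hsl0 : ∀ i u, 0 ≤ sl i u 0 := by
    intro i u
    simp only [sl]
    have := H.zero_min (i := i) i.2 u u.2
    rw [hνN i]
    linarith
  have hslk : ∀ i u k, k ≠ 0 → g1 ≤ sl i u k := by
    intro i u k hk
    simp only [sl]
    rcases lt_or_gt_of_ne hk with h | h
    · have h1 := H.neg_bound (ν i) (H.hν0.le.trans (hi0 i)) (hil i) k (by omega) u u.2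
      have h2 : F q Q m N c (ν i) (m - 1 - i) 0 ≤ F q Q m N c (ν i) 0 0 := by
        rw [hνN i]; exact H.zero_min (i := i) i.2 0 (by omega)
      linarith
    · have h1 := H.pos_bound (ν i) (hi0 i) k (by omega) u u.2
      have h2 : F q Q m N c (ν i) (m - 1 - i) 0 ≤ F q Q m N c (ν i) (m - 1) 0 := by
        rw [hνN i]; exact H.zero_min (i := i) i.2 (m - 1) (by omega)
      linarith
  have hsl_nonneg : ∀ i u k, 0 ≤ sl i u k := by
    intro i u k
    by_cases hk : k = 0
    · rw [hk]; exact hsl0 i u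
    · exact hg1pos.le.trans (hslk i u k hk)
  obtain ⟨g2, hg2pos, hg2⟩ := exists_gap (fun a : Fin m × Fin m => sl a.1 a.2 0)
  let s : ℝ := E q Q m N c m
  have hspos : 0 < s := by
    simp only [s, E]
    apply Finset.sum_pos
    · intro t ht
      have ht' : t < m := Finset.mem_range.mp ht
      exact mul_pos (lt_of_lt_of_le H.c_pos (H.le_slope t)) (H.D0_pos t ht')
    · exact ⟨0, Finset.mem_range.mpr (by omega)⟩
  refine ⟨s, min g1 g2, hspos, lt_min hg1pos hg2pos, ?_⟩
  intro π k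
  intro Φ D
  -- the identity `Φ - D = ∑ slack`
  have hzp : ∀ (u : ℕ) (k : ℤ), (p : ℝ) ^ ((u : ℤ) + n * k) = q ^ u * Q ^ k := by
    intro u k
    have hq0 : q ≠ 0 := by linarith
    rw [zpow_add₀ hq0, zpow_mul, zpow_natCast, zpow_natCast]
  have hzD : ∀ i : Fin m, (p : ℝ) ^ ((m : ℤ) - 1 - ((i : ℕ) : ℤ)) = q ^ (m - 1 - (i : ℕ)) := by
    intro i
    have : (m : ℤ) - 1 - ((i : ℕ) : ℤ) = ((m - 1 - (i : ℕ) : ℕ) : ℤ) := by
      have := i.2
      omega
    rw [this, zpow_natCast]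
  have hE : ∑ i : Fin m, E q Q m N c (π i) = ∑ i : Fin m, E q Q m N c (m - 1 - (i : ℕ)) := by
    have h1 : ∑ i : Fin m, E q Q m N c (π i) = ∑ u : Fin m, E q Q m N c u :=
      Equiv.sum_comp π (fun u : Fin m => E q Q m N c u)
    have h2 : ∑ i : Fin m, E q Q m N c (m - 1 - (i : ℕ)) = ∑ u : Fin m, E q Q m N c u := by
      refine (Equiv.sum_comp Fin.revPerm (fun u : Fin m => E q Q m N c u)).symm ▸ ?_
      apply Finset.sum_congr rfl
      intro i _
      congr 1
      simp only [Fin.revPerm_apply, Fin.val_rev]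
      omega
    rw [h1, h2]
  have hid : Φ - D = ∑ i, sl i (π i) (k i) := by
    simp only [Φ, D, sl, F, hzp, hzD]
    have h3 : ∀ i : Fin m, ν i * (q ^ (m - 1 - (i : ℕ)) * Q ^ (0 : ℤ)) = ν i * q ^ (m - 1 - (i : ℕ)) := by
      intro i; simp
    simp only [h3, Int.cast_zero, mul_zero, sub_zero]
    rw [Finset.sum_sub_distrib, Finset.sum_sub_distrib, Finset.sum_sub_distrib, hE,
      Finset.mul_sum, Finset.sum_sub_distrib]
    simp only [s]
    ring
  by_cases hall : ∀ i, sl i (π i) (k i) = 0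
  · left
    have hk0 : k = 0 := by
      funext i
      by_contra hk
      have := hslk i (π i) (k i) hk
      rw [hall i] at this
      linarith
    have hΦ : Φ = D := by
      have : Φ - D = 0 := by rw [hid]; exact Finset.sum_eq_zero fun i _ => hall i
      linarith
    refine ⟨hk0, fun i => ⟨?_, hΦ⟩⟩
    have h0 := hall i
    have hk1 : k i = 0 := by rw [hk0]; rfl
    rw [hk1] at h0
    simp only [sl] at h0
    have h1 : F q Q m N c (N i) (π i) 0 = F q Q m N c (N i) (m - 1 - i) 0 := by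
      rw [← hνN i]; linarith
    have h2 := H.zero_eq (i := i) i.2 (π i) (π i).2 h1
    rw [hνN i, h2]
    simp only [N]
    congr 2
    omega
  · right
    push Not at hall
    obtain ⟨i, hi⟩ := hall
    have hpos : 0 < sl i (π i) (k i) := lt_of_le_of_ne (hsl_nonneg _ _ _) (Ne.symm hi)
    have hge : min g1 g2 ≤ sl i (π i) (k i) := by
      by_cases hk : k i = 0
      · rw [hk] at hpos ⊢
        exact (min_le_right _ _).trans (hg2 (i, π i) hpos)
      · exact (min_le_left _ _).trans (hslk i (π i) (k i) hk)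
    have hsum : sl i (π i) (k i) ≤ ∑ j, sl j (π j) (k j) :=
      Finset.single_le_sum (f := fun j => sl j (π j) (k j)) (fun j _ => hsl_nonneg _ _ _)
        (Finset.mem_univ i)
    have : Φ - D = ∑ i, sl i (π i) (k i) := hid
    linarith

end

end Crest.Agent.LT
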